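import Vale.Agent.P164.Defs

/-!
# The SLE trace for `0 < κ < 8`
-/

namespace Vale.Agent.P164

open MeasureTheory ProbabilityTheory Set
open scoped NNReal ENNReal

/-- The union of the unbounded connected components of `S`. -/
def unbComp (S : Set ℂ) : Set ℂ := {z ∈ S | ¬ Bornology.IsBounded (connectedComponentIn S z)}

/-- `γ` is a continuous curve in the closed upper half-plane which generates the Loewner chain
driven by `W`: for every `t` the domain of `g_t` is the unbounded component of the open upper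
half-plane minus `γ [0,t]`. -/
structure IsTrace (W : ℝ → ℝ) (γ : ℝ → ℂ) : Prop where
  cont : ContinuousOn γ (Ici 0)
  start : γ 0 = (W 0 : ℂ)
  im_nonneg : ∀ t : ℝ, 0 ≤ t → 0 ≤ (γ t).im
  domain_eq : ∀ t : ℝ, 0 ≤ t →
    loewnerDomain W t = unbComp ({z : ℂ | 0 < z.im} \ γ '' Icc 0 t)

/-- `γ` is the trace of chordal SLE with parameter `κ` on the probability space `(Ω, P)`: its
driving function is `√κ` times a standard Brownian motion. -/
def IsSLE {Ω : Type*} [MeasurableSpace Ω] (κ : ℝ) (P : Measure Ω) (γ : Ω → ℝ → ℂ) : Prop :=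
  ∃ B : ℝ≥0 → Ω → ℝ, IsBrownianReal B P ∧
    ∀ᵐ ω ∂P, IsTrace (fun t => √κ * B t.toNNReal ω) (γ ω)

universe u

/-- Almost surely every segment of the trace has zero `h`-measure. -/
def AllNull8 (κ : ℝ) (h : ℝ → ℝ) : Prop :=
  ∀ (Ω : Type u) [MeasurableSpace Ω] (P : Measure Ω) (γ : Ω → ℝ → ℂ), IsSLE κ P γ →
    ∀ᵐ ω ∂P, ∀ s t : ℝ, 0 < s → s < t → gaugeMeasure h (γ ω '' Icc s t) = 0

/-- `h` is a good gauge: almost surely every segment has positive and finite `h`-measure. -/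
def Good8 (κ : ℝ) (h : ℝ → ℝ) : Prop :=
  ∀ (Ω : Type u) [MeasurableSpace Ω] (P : Measure Ω) (γ : Ω → ℝ → ℂ), IsSLE κ P γ →
    ∀ᵐ ω ∂P, ∀ s t : ℝ, 0 < s → s < t →
      0 < gaugeMeasure h (γ ω '' Icc s t) ∧ gaugeMeasure h (γ ω '' Icc s t) < ⊤

/-- Almost surely every segment of the trace has infinite `h`-measure. -/
def AllInf8 (κ : ℝ) (h : ℝ → ℝ) : Prop :=
  ∀ (Ω : Type u) [MeasurableSpace Ω] (P : Measure Ω) (γ : Ω → ℝ → ℂ), IsSLE κ P γ →
    ∀ᵐ ω ∂P, ∀ s t : ℝ, 0 < s → s < t → gaugeMeasure h (γ ω '' Icc s t) = ⊤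

end Vale.Agent.P164
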